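import Vale.Agent.P211Z.Main
import Vale.Agent.P211Z.Proj

open scoped Manifold ContDiff
open Bundle Vale.Agent.P211.NN Vale.Agent.P211.HK Vale.Agent.P211Z

/-- Closed connected four-manifolds `(M, g)` with `Ric = lam g`, `lam > 0`, and nonnegative
sectional curvature; `dist` is the Riemannian distance and `cov` the Levi-Civita connection of `g`.
(1) `M` has a universal Riemannian cover, that is, a Riemannian covering `φ : N → M` with `N` simply
connected. (2) For every such covering, `N` is compact and isometric to the round sphere of radius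
`√(3 / lam)`, to the complex projective plane with the Fubini-Study distance
`√(6 / lam) * arccos |⟨z, w⟩|`, or to the product of two round two-spheres of radius `√(1 / lam)`.
(3) If `K > 0` at one point, then `M` itself is isometric to this sphere, to its quotient by the
antipodal map, or to this complex projective plane. -/
theorem Vale.Agent.Results.P211.AUniversalCover.result
    {E : Type} [NormedAddCommGroup E] [NormedSpace ℝ E] [FiniteDimensional ℝ E]
    (hdim : Module.finrank ℝ E = 4)
    {M : Type} [MetricSpace M] [CompactSpace M] [ConnectedSpace M]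
    [ChartedSpace E M] [IsManifold 𝓘(ℝ, E) ∞ M]
    [RiemannianBundle fun p : M => TangentSpace 𝓘(ℝ, E) p]
    [IsContMDiffRiemannianBundle 𝓘(ℝ, E) ∞ E fun p : M => TangentSpace 𝓘(ℝ, E) p]
    [IsRiemannianManifold 𝓘(ℝ, E) M]
    (cov : CovariantDerivative 𝓘(ℝ, E) E (TangentSpace 𝓘(ℝ, E) : M → Type))
    (hs : cov.ContMDiffCovariantDerivative ∞) (ht : cov.torsion = 0)
    (hm : CovariantDerivative.IsMetricCompatible (V := (TangentSpace 𝓘(ℝ, E) : M → Type)) cov)
    (hK : SecNonneg cov) {lam : ℝ} (hlam : 0 < lam) (hR : RicciEq cov (fun _ => lam)) :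
    (∃ (N : Type) (_ : MetricSpace N) (_ : ChartedSpace E N) (_ : IsManifold 𝓘(ℝ, E) ∞ N)
      (_ : RiemannianBundle fun p : N => TangentSpace 𝓘(ℝ, E) p)
      (_ : IsContMDiffRiemannianBundle 𝓘(ℝ, E) ∞ E fun p : N => TangentSpace 𝓘(ℝ, E) p)
      (_ : IsRiemannianManifold 𝓘(ℝ, E) N) (φ : N → M),
      SimplyConnectedSpace N ∧ IsRiemannianCovering E φ) ∧
    (∀ (N : Type) [MetricSpace N] [ChartedSpace E N] [IsManifold 𝓘(ℝ, E) ∞ N]
      [RiemannianBundle fun p : N => TangentSpace 𝓘(ℝ, E) p]
      [IsContMDiffRiemannianBundle 𝓘(ℝ, E) ∞ E fun p : N => TangentSpace 𝓘(ℝ, E) p]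
      [IsRiemannianManifold 𝓘(ℝ, E) N] (φ : N → M),
      SimplyConnectedSpace N → IsRiemannianCovering E φ → CompactSpace N ∧
        (IsRoundS4 N √(3 / lam) ∨ IsFubiniStudyCP2 N √(6 / lam) ∨ IsRoundS2S2 N √(1 / lam))) ∧
    ((∃ p : M, ∀ X Y : SmoothField E M, LinearIndependent ℝ ![X p, Y p] →
        0 < Rm cov X Y Y X p) →
      IsRoundS4 M √(3 / lam) ∨ IsRoundRP4 M √(3 / lam) ∨ IsFubiniStudyCP2 M √(6 / lam)) := by
  refine ⟨exists_universal, fun N _ _ _ _ _ _ φ hN hφ => ?_, fun hp => ?_⟩
  · obtain ⟨h1, h2, -⟩ := classify hdim cov hs ht hm hK hlam hR N φ hN hφ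
    exact ⟨h1, h2⟩
  · obtain ⟨N, _, _, _, _, _, _, φ, hN, hφ⟩ := exists_universal (E := E) (M := M)
    obtain ⟨-, -, h3⟩ := classify hdim cov hs ht hm hK hlam hR N φ hN hφ
    rcases h3 hp with h | h
    · rcases quotient_S4 (metricCover hφ) (by positivity) h with h | h
      · exact Or.inl h
      · exact Or.inr (Or.inl h)
    · exact Or.inr (Or.inr (quotient_CP2 (metricCover hφ) (by positivity) h))
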